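import Mathlib

/-!
# Harris inequality for finitely many monotone functions, and two-coordinate marginals

Helper lemmas for the P050 hand-ins (Sidorenko's inequality for monotone hosts).
-/

namespace Vale.Agent.Lib.P050

open Finset

/-- Harris inequality for finitely many monotone nonnegative functions on a finite distributive
lattice with the uniform measure: the product of the averages is at most the average of the
product. -/
lemma harris_prod {α : Type*} [DistribLattice α] [Fintype α] [Nonempty α] {ι : Type*}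
    (S : Finset ι) (f : ι → α → ℝ)
    (h0 : ∀ s ∈ S, ∀ a, 0 ≤ f s a) (hm : ∀ s ∈ S, Monotone (f s)) :
    ∏ s ∈ S, ((∑ a, f s a) / Fintype.card α) ≤ (∑ a, ∏ s ∈ S, f s a) / Fintype.card α := by
  classical
  have hN : (0 : ℝ) < Fintype.card α := by exact_mod_cast Fintype.card_pos
  induction S using Finset.induction_on with
  | empty => simp [hN.ne']
  | insert s S hs ih =>
    rw [Finset.prod_insert hs]
    have h0S : ∀ t ∈ S, ∀ a, 0 ≤ f t a := fun t ht => h0 t (mem_insert_of_mem ht)
    have hmS : ∀ t ∈ S, Monotone (f t) := fun t ht => hm t (mem_insert_of_mem ht)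
    have ih' := ih h0S hmS
    have hs0 : ∀ a, 0 ≤ f s a := h0 s (mem_insert_self s S)
    have hsm : Monotone (f s) := hm s (mem_insert_self s S)
    have hg0 : ∀ a, 0 ≤ ∏ t ∈ S, f t a := fun a => Finset.prod_nonneg (fun t ht => h0S t ht a)
    have hgm : Monotone (fun a => ∏ t ∈ S, f t a) := by
      intro a b hab
      exact Finset.prod_le_prod (fun t ht => h0S t ht a) (fun t ht => hmS t ht hab)
    have hfkg := fkg (μ := fun _ : α => (1 : ℝ)) (f := f s) (g := fun a => ∏ t ∈ S, f t a)
      (fun _ => zero_le_one) hs0 hg0 hsm hgm (fun _ _ => le_refl _)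
    simp only [one_mul, Finset.sum_const, Finset.card_univ, nsmul_eq_mul, mul_one] at hfkg
    have hA : 0 ≤ (∑ a, f s a) / (Fintype.card α : ℝ) :=
      div_nonneg (Finset.sum_nonneg (fun a _ => hs0 a)) hN.le
    calc (∑ a, f s a) / (Fintype.card α : ℝ) * ∏ t ∈ S, ((∑ a, f t a) / Fintype.card α)
        ≤ (∑ a, f s a) / (Fintype.card α : ℝ) * ((∑ a, ∏ t ∈ S, f t a) / Fintype.card α) :=
          mul_le_mul_of_nonneg_left ih' hA
      _ = ((∑ a, f s a) * (∑ a, ∏ t ∈ S, f t a)) / ((Fintype.card α : ℝ) * Fintype.card α) := by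
          rw [div_mul_div_comm]
      _ ≤ ((Fintype.card α : ℝ) * ∑ a, f s a * ∏ t ∈ S, f t a)
            / ((Fintype.card α : ℝ) * Fintype.card α) :=
          div_le_div_of_nonneg_right hfkg (mul_pos hN hN).le
      _ = (∑ a, f s a * ∏ t ∈ S, f t a) / (Fintype.card α : ℝ) := by
          field_simp
      _ = (∑ a, ∏ t ∈ insert s S, f t a) / (Fintype.card α : ℝ) := by
          congr 1
          refine Finset.sum_congr rfl (fun a _ => ?_)
          rw [Finset.prod_insert hs]

/-- Summing a function of two distinct coordinates over all maps `V → Fin n`: the pair of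
coordinates is uniformly distributed. -/
lemma sum_two_coords {V : Type*} [Fintype V] [DecidableEq V] (n : ℕ) (u v : V) (huv : u ≠ v)
    (g : Fin n → Fin n → ℝ) :
    ∃ c : ℕ, Fintype.card (V → Fin n) = n * (n * c) ∧
      ∑ φ : V → Fin n, g (φ u) (φ v) = c * ∑ i, ∑ j, g i j := by
  classical
  let e1 := Equiv.piSplitAt u (fun _ : V => Fin n)
  let v' : {j // j ≠ u} := ⟨v, huv.symm⟩
  let e2 := Equiv.piSplitAt v' (fun _ : {j // j ≠ u} => Fin n)
  refine ⟨Fintype.card ({k : {j // j ≠ u} // k ≠ v'} → Fin n), ?_, ?_⟩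
  · rw [Fintype.card_congr e1, Fintype.card_prod, Fintype.card_congr e2, Fintype.card_prod,
      Fintype.card_fin]
  · have h1 : ∑ φ : V → Fin n, g (φ u) (φ v)
        = ∑ p : Fin n × ({j // j ≠ u} → Fin n), g p.1 (p.2 v') :=
      Fintype.sum_equiv e1 _ _ (fun φ => by simp [e1, v', Equiv.piSplitAt])
    have h2 : ∀ i : Fin n, ∑ ψ : {j // j ≠ u} → Fin n, g i (ψ v')
        = ∑ q : Fin n × ({k : {j // j ≠ u} // k ≠ v'} → Fin n), g i q.1 :=
      fun i => Fintype.sum_equiv e2 _ _ (fun ψ => by simp [e2, Equiv.piSplitAt])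
    rw [h1, Fintype.sum_prod_type, Finset.mul_sum]
    refine Finset.sum_congr rfl (fun i _ => ?_)
    rw [h2 i, Fintype.sum_prod_type, Finset.mul_sum]
    refine Finset.sum_congr rfl (fun j _ => ?_)
    simp [Finset.sum_const, Finset.card_univ]

end Vale.Agent.Lib.P050
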