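import Mathlib

/-!
# Weighted Harris / FKG inequality for finitely many monotone functions, and weighted
two-coordinate marginals of a product weight

Helper lemmas for the P050 hand-in `C_LatticeHosts`.
-/

namespace Vale.Agent.Lib.P050

open Finset

/-- FKG inequality for finitely many monotone nonnegative functions on a finite distributive
lattice, with respect to a log-supermodular probability weight. -/
lemma fkg_prod {α : Type*} [DistribLattice α] [Fintype α] {ι : Type*}
    (μ : α → ℝ) (hμ0 : ∀ a, 0 ≤ μ a) (hμ1 : ∑ a, μ a = 1)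
    (hμ : ∀ a b, μ a * μ b ≤ μ (a ⊓ b) * μ (a ⊔ b))
    (S : Finset ι) (f : ι → α → ℝ)
    (h0 : ∀ s ∈ S, ∀ a, 0 ≤ f s a) (hm : ∀ s ∈ S, Monotone (f s)) :
    ∏ s ∈ S, (∑ a, μ a * f s a) ≤ ∑ a, μ a * ∏ s ∈ S, f s a := by
  classical
  induction S using Finset.induction_on with
  | empty => simp [hμ1]
  | insert s S hs ih =>
    rw [Finset.prod_insert hs]
    have h0S : ∀ t ∈ S, ∀ a, 0 ≤ f t a := fun t ht => h0 t (mem_insert_of_mem ht)
    have hmS : ∀ t ∈ S, Monotone (f t) := fun t ht => hm t (mem_insert_of_mem ht)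
    have ih' := ih h0S hmS
    have hs0 : ∀ a, 0 ≤ f s a := h0 s (mem_insert_self s S)
    have hsm : Monotone (f s) := hm s (mem_insert_self s S)
    have hg0 : ∀ a, 0 ≤ ∏ t ∈ S, f t a := fun a => Finset.prod_nonneg (fun t ht => h0S t ht a)
    have hgm : Monotone (fun a => ∏ t ∈ S, f t a) := by
      intro a b hab
      exact Finset.prod_le_prod (fun t ht => h0S t ht a) (fun t ht => hmS t ht hab)
    have hfkg := fkg (μ := μ) (f := f s) (g := fun a => ∏ t ∈ S, f t a)
      hμ0 hs0 hg0 hsm hgm hμ
    rw [hμ1, one_mul] at hfkg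
    have hA : 0 ≤ ∑ a, μ a * f s a :=
      Finset.sum_nonneg (fun a _ => mul_nonneg (hμ0 a) (hs0 a))
    calc (∑ a, μ a * f s a) * ∏ t ∈ S, (∑ a, μ a * f t a)
        ≤ (∑ a, μ a * f s a) * (∑ a, μ a * ∏ t ∈ S, f t a) :=
          mul_le_mul_of_nonneg_left ih' hA
      _ ≤ ∑ a, μ a * (f s a * ∏ t ∈ S, f t a) := hfkg
      _ = ∑ a, μ a * ∏ t ∈ insert s S, f t a := by
          refine Finset.sum_congr rfl (fun a _ => ?_)
          rw [Finset.prod_insert hs]

/-- The total mass of a product weight. -/
lemma sum_prod_weight {V : Type*} [Fintype V] [DecidableEq V] {L : Type*} [Fintype L]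
    (ν : L → ℝ) (hν1 : ∑ a, ν a = 1) :
    ∑ φ : V → L, ∏ w, ν (φ w) = 1 := by
  classical
  have h := Finset.prod_univ_sum (fun _ : V => (Finset.univ : Finset L)) (fun _ c => ν c)
  rw [Fintype.piFinset_univ] at h
  rw [← h]
  simp [hν1]

/-- Two-coordinate marginal of a product weight: the pair of coordinates `(φ u, φ v)`, `u ≠ v`,
is distributed as `ν ⊗ ν`. -/
lemma sum_two_coords_weighted {V : Type*} [Fintype V] [DecidableEq V] {L : Type*} [Fintype L]
    (ν : L → ℝ) (hν1 : ∑ a, ν a = 1) (u v : V) (huv : u ≠ v) (g : L → L → ℝ) :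
    ∑ φ : V → L, (∏ w, ν (φ w)) * g (φ u) (φ v) = ∑ a, ∑ b, ν a * ν b * g a b := by
  classical
  -- the marginal of a single pair of values
  have hpt : ∀ a b : L, ∑ φ : V → L,
      (∏ w, ν (φ w)) * ((if φ u = a then (1 : ℝ) else 0) * (if φ v = b then (1 : ℝ) else 0))
        = ν a * ν b := by
    intro a b
    let F : V → L → ℝ := fun w c =>
      ν c * ((if w = u then (if c = a then (1 : ℝ) else 0) else 1)
        * (if w = v then (if c = b then (1 : ℝ) else 0) else 1))
    have h := Finset.prod_univ_sum (fun _ : V => (Finset.univ : Finset L)) F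
    rw [Fintype.piFinset_univ] at h
    have hL : ∀ φ : V → L, (∏ w, ν (φ w)) *
        ((if φ u = a then (1 : ℝ) else 0) * (if φ v = b then (1 : ℝ) else 0))
          = ∏ w, F w (φ w) := by
      intro φ
      simp only [F]
      rw [Finset.prod_mul_distrib, Finset.prod_mul_distrib, Finset.prod_ite_eq',
        Finset.prod_ite_eq']
      simp
    rw [Finset.sum_congr rfl (fun φ _ => hL φ), ← h]
    have hR : ∀ w : V, ∑ c, F w c
        = (if w = u then ν a else 1) * (if w = v then ν b else 1) := by
      intro w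
      simp only [F]
      by_cases hwu : w = u
      · have hwv : w ≠ v := by rw [hwu]; exact huv
        simp [hwu, huv]
      · by_cases hwv : w = v
        · have hvu : v ≠ u := fun h => huv h.symm
          simp [hwv, hvu]
        · simp [hwu, hwv, hν1]
    rw [Finset.prod_congr rfl (fun w _ => hR w), Finset.prod_mul_distrib,
      Finset.prod_ite_eq', Finset.prod_ite_eq']
    simp
  have hg : ∀ φ : V → L, g (φ u) (φ v)
      = ∑ a, ∑ b, g a b * ((if φ u = a then (1 : ℝ) else 0) * (if φ v = b then (1 : ℝ) else 0)) := by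
    intro φ
    simp
  calc ∑ φ : V → L, (∏ w, ν (φ w)) * g (φ u) (φ v)
      = ∑ φ : V → L, ∑ a, ∑ b, g a b * ((∏ w, ν (φ w)) *
          ((if φ u = a then (1 : ℝ) else 0) * (if φ v = b then (1 : ℝ) else 0))) := by
        refine Finset.sum_congr rfl (fun φ _ => ?_)
        rw [hg φ, Finset.mul_sum]
        refine Finset.sum_congr rfl (fun a _ => ?_)
        rw [Finset.mul_sum]
        refine Finset.sum_congr rfl (fun b _ => ?_)
        ring
    _ = ∑ a, ∑ b, g a b * ∑ φ : V → L, ((∏ w, ν (φ w)) *
          ((if φ u = a then (1 : ℝ) else 0) * (if φ v = b then (1 : ℝ) else 0))) := by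
        rw [Finset.sum_comm]
        refine Finset.sum_congr rfl (fun a _ => ?_)
        rw [Finset.sum_comm]
        refine Finset.sum_congr rfl (fun b _ => ?_)
        rw [Finset.mul_sum]
    _ = ∑ a, ∑ b, ν a * ν b * g a b := by
        refine Finset.sum_congr rfl (fun a _ => ?_)
        refine Finset.sum_congr rfl (fun b _ => ?_)
        rw [hpt a b]
        ring

end Vale.Agent.Lib.P050
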